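import Vale.Agent.P040.Cut
import Vale.Agent.P040.Chain
import Vale.Agent.P040.Alg
import Vale.Agent.P040.Upper

open Vale.Agent.P040

theorem Vale.Agent.Results.P040.Zar.result (m n : ℕ) :
    IsLeast (Set.range fun D : Drawing m n => D.crossings) (d m * d n) := by
  have h : ∀ D : Drawing m n, d m * d n ≤ D.crossings := fun D => by
    obtain ⟨S, _, P, hP⟩ := exists_plan D
    obtain ⟨T⟩ := exists_data P
    exact hP ▸ data_bound T
  obtain ⟨D, hD⟩ := exists_drawing m n
  exact ⟨⟨D, le_antisymm hD (h D)⟩, fun _ ⟨D, hD⟩ => hD ▸ h D⟩
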